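import Vale.Agent.GroupAlg.FreeExt
import Vale.Agent.GroupAlg.Central

/-!
P201: absence of zero divisors passes through extensions with free kernel and through central
extensions with torsion-free kernel.
-/

namespace Vale.Agent.Results.P201.FreeKernelExtension

theorem result :
    ∀ (K : Type*) [Ring K] (G : Type*) [Group G] (N : Subgroup G) [N.Normal],
      IsFreeGroup N ∨ (IsMulTorsionFree N ∧ ∀ n ∈ N, ∀ g : G, g * n = n * g) →
      NoZeroDivisors (MonoidAlgebra K (G ⧸ N)) → NoZeroDivisors (MonoidAlgebra K G) := by
  intro K _ G _ N _ hN h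
  rcases hN with hfree | ⟨htf, hcen⟩
  · obtain ⟨ι, hι⟩ := GroupAlg.freeKernel_of_isFree N
    exact GroupAlg.noZeroDivisors_of_freeKernel hι
  · exact GroupAlg.noZeroDivisors_of_central N hcen

end Vale.Agent.Results.P201.FreeKernelExtension
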